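import Vale.Agent.P281.H64.TS.Defs

/-!
# P281, project T-S (helper64): K3 and Enriques fibres, statements of the blocks, part 1 (FROZEN)

The de Rham theorem for `H²` with integral classes (blocks A), and the Hodge index theorem on a
compact Kähler surface (blocks C).
-/

open Set Filter Metric MeasureTheory Vale.Agent.P272.K
open scoped Topology ContDiff ComplexConjugate ComplexOrder

noncomputable section

namespace Vale.Agent.P281.H64.TK.TS

/-! ### A. Topology -/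

/-- **A1**: there are good coverings with arbitrarily small radii. (The image of a small Euclidean
ball by a `C²` diffeomorphism is convex: `z ↦ ‖θ z - c‖²` is convex near `θ⁻¹ c`; compactness.) -/
def GoodStmt : Prop :=
  ∀ (d : ℕ) (E Γ : Type) [TopologicalSpace E] [T2Space E] [Group Γ] [Subsingleton Γ]
    [MulAction Γ E] [ContinuousConstSMul Γ E] (S : Sheets d E Γ), 0 < d → ∀ ε > 0,
    ∃ (A : Type) (_ : Fintype A) (G : Good S A), ∀ a, G.r a < ε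

/-- **A2**: smooth partition of unity. -/
def PartStmt : Prop :=
  ∀ (d : ℕ) (E Γ : Type) [TopologicalSpace E] [T2Space E] [Group Γ] [Subsingleton Γ]
    [MulAction Γ E] [ContinuousConstSMul Γ E] (S : Sheets d E Γ) (A : Type) [Fintype A]
    (G : Good S A), 0 < d → ∃ ρ : A → E → ℝ, Part G ρ

/-- **A3**: the Poincaré lemma for 2-forms and for 1-forms on an open convex set. -/
def PoinStmt : Prop :=
  (∀ (d : ℕ) (C : Set (Cm d)), IsOpen C → Convex ℝ C → ∀ a : Cm d → L2 d, ContDiffOn ℝ ∞ a C →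
    (∀ z ∈ C, ∀ u v, a z u v = - a z v u) →
    (∀ z ∈ C, ∀ u v w, fderiv ℝ a z u v w + fderiv ℝ a z v w u + fderiv ℝ a z w u v = 0) →
    ∃ b : Cm d → L1 d, ContDiffOn ℝ ∞ b C ∧
      ∀ z ∈ C, ∀ u v, fderiv ℝ b z u v - fderiv ℝ b z v u = a z u v) ∧
  ∀ (d : ℕ) (C : Set (Cm d)), IsOpen C → Convex ℝ C → ∀ b : Cm d → L1 d, ContDiffOn ℝ ∞ b C →
    (∀ z ∈ C, ∀ u v, fderiv ℝ b z u v = fderiv ℝ b z v u) →
    ∃ g : Cm d → ℂ, ContDiffOn ℝ ∞ g C ∧ ∀ z ∈ C, fderiv ℝ g z = b z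

/-- **A4a** (from A3): existence of Čech data. (Extend from the sheet `i a` to the other sheets by
the transition maps.) -/
def CoExStmt : Prop :=
  ∀ (d : ℕ) (E Γ : Type) [TopologicalSpace E] [T2Space E] [Group Γ] [Subsingleton Γ]
    [MulAction Γ E] [ContinuousConstSMul Γ E] (S : Sheets d E Γ) (A : Type) (G : Good S A)
    (α : Fin S.N → Cm d → L2 d), 0 < d → Cl2 S α →
    ∃ (β : A → Fin S.N → Cm d → L1 d) (g : A → A → E → ℂ) (c : A → A → A → ℂ),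
      IsCo S G.U α β g c

/-- **A4b** (from A3, A2): the data give a cocycle, which is a coboundary if and only if the form is
exact. -/
def CoCobStmt : Prop :=
  ∀ (d : ℕ) (E Γ : Type) [TopologicalSpace E] [T2Space E] [Group Γ] [Subsingleton Γ]
    [MulAction Γ E] [ContinuousConstSMul Γ E] (S : Sheets d E Γ) (A : Type) [Fintype A]
    (G : Good S A) (α : Fin S.N → Cm d → L2 d) (β : A → Fin S.N → Cm d → L1 d)
    (g : A → A → E → ℂ) (c : A → A → A → ℂ), 0 < d → Cl2 S α → IsCo S G.U α β g c →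
    IsCoc (K3 G.U) (K4 G.U) c ∧ (Exact S α ↔ IsCob (K3 G.U) c)

/-- **A5** (from A2; Weil): `α = Σ c_{abe} ρ_a dρ_b ∧ dρ_e`, `β_f = Σ c_{fbe} ρ_b dρ_e`,
`g_{ef} = Σ c_{efb} ρ_b`. -/
def WeilStmt : Prop :=
  ∀ (d : ℕ) (E Γ : Type) [TopologicalSpace E] [T2Space E] [Group Γ] [Subsingleton Γ]
    [MulAction Γ E] [ContinuousConstSMul Γ E] (S : Sheets d E Γ) (A : Type) [Fintype A]
    (G : Good S A) (c : A → A → A → ℂ), 0 < d → IsCoc (K3 G.U) (K4 G.U) c →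
    ∃ (α : Fin S.N → Cm d → L2 d) (β : A → Fin S.N → Cm d → L1 d) (g : A → A → E → ℂ),
      Cl2 S α ∧ IsCo S G.U α β g c ∧ ((∀ a b e, (c a b e).im = 0) → Real2 S α) ∧
      ((∀ a b e, ∃ m : ℤ, c a b e = m) → IsInt S α)

/-- **A6**: linear algebra of an integral cochain complex. -/
def LinStmt : Prop :=
  ∀ (A : Type) [Fintype A] (K3 : A → A → A → Prop) (K4 : A → A → A → A → Prop),
    (∀ a b e f, K4 a b e f → K3 b e f ∧ K3 a e f ∧ K3 a b f ∧ K3 a b e) →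
    ∃ (n : ℕ) (m : Fin n → A → A → A → ℤ), (∀ k, IsCoc K3 K4 (m k)) ∧
      (∀ c : A → A → A → ℂ, IsCoc K3 K4 c →
        ∃! x : Fin n → ℂ, IsCob K3 (fun a b e => c a b e - ∑ k, x k * (m k a b e : ℂ))) ∧
      ∀ c : A → A → A → ℤ, IsCoc K3 K4 c → ∀ x : Fin n → ℂ,
        IsCob K3 (fun a b e => (c a b e : ℂ) - ∑ k, x k * (m k a b e : ℂ)) →
        ∀ k, ∃ j : ℤ, x k = j

/-- **A7**: an integral form has an integral Čech class for any good covering. (On a convex set, the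
flat `ℝ/ℤ`-bundle given by `β_a - β'_i`, `g'_{ij}` is trivial.) -/
def IntCobStmt : Prop :=
  ∀ (d : ℕ) (E Γ : Type) [TopologicalSpace E] [T2Space E] [Group Γ] [Subsingleton Γ]
    [MulAction Γ E] [ContinuousConstSMul Γ E] (S : Sheets d E Γ) (A : Type) [Fintype A]
    (G : Good S A) (α : Fin S.N → Cm d → L2 d) (β : A → Fin S.N → Cm d → L1 d)
    (g : A → A → E → ℂ) (c : A → A → A → ℂ), 0 < d → Cl2 S α → IsInt S α →
    IsCo S G.U α β g c →
    ∃ m : A → A → A → ℤ, IsCoc (K3 G.U) (K4 G.U) m ∧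
      IsCob (K3 G.U) (fun a b e => c a b e - (m a b e : ℂ))

/-- **A8** (from A1, ..., A7). -/
def MarkStmt : Prop :=
  ∀ (d : ℕ) (E Γ : Type) [TopologicalSpace E] [T2Space E] [Group Γ] [Subsingleton Γ]
    [MulAction Γ E] [ContinuousConstSMul Γ E] (S : Sheets d E Γ), 0 < d →
    ∃ n, Nonempty (Mark2 S n)

section
variable {d : ℕ} {E Γ : Type} [TopologicalSpace E] [Group Γ] [MulAction Γ E]
variable {E' Γ' : Type} [TopologicalSpace E'] [Group Γ'] [MulAction Γ' E']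

/-- `τ` is an orientation preserving diffeomorphism. -/
def Dif (S : Sheets d E Γ) (S' : Sheets d E' Γ') (τ : E ≃ₜ E') : Prop :=
  ∀ i j, ∀ z ∈ ball (0 : Cm d) 3, ∀ z' ∈ ball (0 : Cm d) 3, τ (S.σ i z) = S'.σ j z' →
    ∃ ψ, Tr S S' τ i j z z' ψ ∧ 0 < (fderiv ℝ ψ z).det

end

/-- **A9**: the pull-back by a diffeomorphism. -/
def PullStmt : Prop :=
  ∀ (d : ℕ) (E Γ : Type) [TopologicalSpace E] [T2Space E] [Group Γ] [Subsingleton Γ]
    [MulAction Γ E] [ContinuousConstSMul Γ E] (S : Sheets d E Γ)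
    (E' Γ' : Type) [TopologicalSpace E'] [T2Space E'] [Group Γ'] [Subsingleton Γ']
    [MulAction Γ' E'] [ContinuousConstSMul Γ' E'] (S' : Sheets d E' Γ') (τ : E ≃ₜ E'), 0 < d →
    Dif S S' τ → Dif S' S τ.symm ∧
      (∀ α', Cl2 S' α' → ∃ α, Cl2 S α ∧ Pull2 S S' τ α α') ∧
      (∀ α α', Cl2 S α → Cl2 S' α' → Pull2 S S' τ α α' → Pull2 S' S τ.symm α' α) ∧
      ∀ α α', Pull2 S S' τ α α' → (IsInt S' α' → IsInt S α) ∧ (Real2 S' α' → Real2 S α) ∧
        (Exact S' α' → Exact S α)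

/-! ### C. Analysis -/

/-- The exterior derivative of a 1-form on `ℂ^d`. -/
def d1 {d : ℕ} (β : Cm d → L1 d) (z : Cm d) : L2 d := fderiv ℝ β z - (fderiv ℝ β z).flip

/-- **C1** (Stokes). -/
def StokesStmt : Prop :=
  ∀ (E Γ : Type) [TopologicalSpace E] [T2Space E] [Group Γ] [Subsingleton Γ]
    [MulAction Γ E] [ContinuousConstSMul Γ E] (S : Sheets 2 E Γ) (α : Fin S.N → Cm 2 → L2 2)
    (β : Fin S.N → Cm 2 → L1 2), Cl2 S α → F1On S univ β →
    wint S (fun i z => d1 (β i) z) α = 0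

/-- **C2a**: change of variables. -/
def IntInvStmt : Prop :=
  ∀ (d : ℕ) (E Γ : Type) [TopologicalSpace E] [T2Space E] [Group Γ] [Subsingleton Γ]
    [MulAction Γ E] [ContinuousConstSMul Γ E] (S : Sheets d E Γ)
    (E' Γ' : Type) [TopologicalSpace E'] [T2Space E'] [Group Γ'] [Subsingleton Γ']
    [MulAction Γ' E'] [ContinuousConstSMul Γ' E'] (S' : Sheets d E' Γ') (τ : E ≃ₜ E')
    (D : Fin S.N → Cm d → ℂ) (D' : Fin S'.N → Cm d → ℂ), 0 < d → Dif S S' τ →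
    (∀ i, ContinuousOn (D i) (ball 0 3)) → (∀ i, ContinuousOn (D' i) (ball 0 3)) →
    (∀ i j, ∀ z ∈ ball (0 : Cm d) 3, ∀ z' ∈ ball (0 : Cm d) 3, ∀ ψ, Tr S S' τ i j z z' ψ →
      D i z = D' j z' * ((fderiv ℝ ψ z).det : ℂ)) →
    S.int D = S'.int D'

/-- **C2b**: `wd` is the density of a form of degree 4. -/
def WdStmt : Prop :=
  ∀ (L : Cm 2 →L[ℝ] Cm 2) (a b a' b' : L2 2), (∀ u v, a' u v = - a' v u) →
    (∀ u v, b' u v = - b' v u) → (∀ u v, a u v = a' (L u) (L v)) →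
    (∀ u v, b u v = b' (L u) (L v)) → wd a b = wd a' b' * (L.det : ℂ)

/-- **C3**: a `(0,2)`-form which is orthogonal to the holomorphic 2-forms is in the closure of the
image of `∂̄` in `L²`. (Otherwise there is `η ∈ L²` of type `(0,2)`, orthogonal to the image of `∂̄`,
and not to `a`; `conj η` is weakly holomorphic, so it is a holomorphic 2-form.) -/
def Hodge02Stmt : Prop :=
  ∀ (E Γ : Type) [TopologicalSpace E] [T2Space E] [Group Γ] [Subsingleton Γ]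
    [MulAction Γ E] [ContinuousConstSMul Γ E] (S : Sheets 2 E Γ) (a : Fin S.N → Cm 2 → ℂ),
    (∀ i, ContDiffOn ℝ ∞ (a i) (ball 0 3)) →
    (∀ i j, ∀ z ∈ ball (0 : Cm 2) 3, ∀ z' ∈ ball (0 : Cm 2) 3, ∀ θ : Cm 2 → Cm 2,
      AnalyticAt ℂ θ z → θ z = z' → (∀ᶠ u in 𝓝 z, S.σ i u = S.σ j (θ u)) →
        a i z = a j z' * conj (jac θ z).det) →
    (∀ s, HolD S s → S.int (fun i z => a i z * s i z) = 0) → ∀ ε > 0,
    ∃ b : Fin S.N → Cm 2 → Fin 2 → ℂ, (∀ i, ContDiffOn ℝ ∞ (b i) (ball 0 3)) ∧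
      (∀ i j, ∀ z ∈ ball (0 : Cm 2) 3, ∀ z' ∈ ball (0 : Cm 2) 3, ∀ θ : Cm 2 → Cm 2,
        AnalyticAt ℂ θ z → θ z = z' → (∀ᶠ u in 𝓝 z, S.σ i u = S.σ j (θ u)) →
          ∀ k, b i z k = ∑ l, b j z' l * conj (jac θ z l k)) ∧
      (S.int fun i z => ((‖a i z - (dzb 0 (fun u => b i u 1) z -
        dzb 1 (fun u => b i u 0) z)‖ ^ 2 : ℝ) : ℂ)).re < ε

/-- **C4**: the image of the Laplacian is dense (`P284`, `V7Concl`; see `H125/KH/Approx`). -/
def LapStmt : Prop :=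
  ∀ (d : ℕ) (E Γ : Type) [TopologicalSpace E] [T2Space E] [Group Γ] [Subsingleton Γ]
    [MulAction Γ E] [ContinuousConstSMul Γ E] [PreconnectedSpace E] (S : Sheets d E Γ)
    (w : Fin S.N → Cm d → Matrix (Fin d) (Fin d) ℂ) (g : E → ℝ), 0 < d → Kah S w →
    SmOn S univ (fun e => (g e : ℂ)) →
    S.int (fun i z => (g (S.σ i z) : ℂ) * (w i z).det) = 0 → ∀ ε > 0,
    ∃ φ : E → ℝ, SmOn S univ (fun e => (φ e : ℂ)) ∧
      (S.int fun i z => ((‖((w i z)⁻¹ * cHess (fun u => φ (S.σ i u)) z).trace - g (S.σ i z)‖ ^ 2 : ℝ) :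
        ℂ) * (w i z).det).re < ε

/-- **C5**: pointwise algebra: `α = s dz_1 ∧ dz_2 + conj + kf2 H`. -/
def AlgStmt : Prop :=
  ∀ (α : L2 2), (∀ u v, α u v = - α v u) → (∀ u v, (α u v).im = 0) →
    ∃ (s : ℂ) (H : Matrix (Fin 2) (Fin 2) ℂ), H.IsHermitian ∧
      (∀ u v, α u v = sf2 s u v + conj (sf2 s u v) + kf2 H u v) ∧
      wd α α = 8 * (‖s‖ ^ 2 : ℝ) + 2 * H.det ∧
      (∀ w : Matrix (Fin 2) (Fin 2) ℂ, w.PosDef → wd α (kf2 w) = w.det * (w⁻¹ * H).trace ∧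
        2 * H.det = w.det * (((w⁻¹ * H).trace) ^ 2 - (w⁻¹ * H * (w⁻¹ * H)).trace) ∧
        0 ≤ (w⁻¹ * H * (w⁻¹ * H)).trace) ∧
      ∀ s' : ℂ, wd α (sf2 s') = 4 * conj s * s'

/-- **C6** (from A3, A4; `L²` Poincaré lemma): a closed form in the `L²`-closure of the exact forms
is exact. -/
def L2ExStmt : Prop :=
  ∀ (d : ℕ) (E Γ : Type) [TopologicalSpace E] [T2Space E] [Group Γ] [Subsingleton Γ]
    [MulAction Γ E] [ContinuousConstSMul Γ E] (S : Sheets d E Γ) (α : Fin S.N → Cm d → L2 d),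
    0 < d → Cl2 S α → (∀ ε > 0, ∃ β, F1On S univ β ∧
      ∑ i, ∫ z in S.P i, ‖α i z - d1 (β i) z‖ ^ 2 < ε) → Exact S α

/-- **C7** (from C1, C3, C4, C5, C6): the Hodge index theorem. -/
def HodgeIndexStmt : Prop :=
  ∀ (E Γ : Type) [TopologicalSpace E] [T2Space E] [Group Γ] [Subsingleton Γ]
    [MulAction Γ E] [ContinuousConstSMul Γ E] [PreconnectedSpace E] (S : Sheets 2 E Γ)
    (w : Fin S.N → Cm 2 → Matrix (Fin 2) (Fin 2) ℂ) (α : Fin S.N → Cm 2 → L2 2), Kah S w →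
    Cl2 S α → Real2 S α → wint S α (fun i z => kf2 (w i z)) = 0 →
    (∀ s, HolD S s → wint S α (fun i z => sf2 (s i z)) = 0) →
    (wint S α α).re ≤ 0 ∧ ((wint S α α).re = 0 → Exact S α)

end Vale.Agent.P281.H64.TK.TS
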