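import Vale.Agent.P281.H64.TS.Spec
import Vale.Agent.P281.H64.TE.Spec
import Vale.Agent.P281.H603.TE.Loc
import Vale.Agent.P281.H713.DefsZ

/-!
# P281, project T-S (helper64): K3 and Enriques fibres, statements of the blocks, part 2 (FROZEN)

Families (blocks D) and geometry (blocks G). `Fam p 2 E Γ` with `[Subsingleton Γ]`: a family of
compact surfaces on the same `E`.
-/

open Set Filter Metric MeasureTheory Vale.Agent.P281 Vale.Agent.P281.H713 Vale.Agent.P272.K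
open Vale.Agent.P281.MF Vale.Agent.P281.ISO Vale.Agent.P281.ELL Vale.Agent.P281.H713.TZ
open Vale.Agent.P281.H64.Thin (IsThinSet)
open Vale.Agent.P281.H64.Gen (IsSmallSet)
open Vale.Agent.P281.H603.TE (sub fsub fW idx rep)
open scoped Topology ContDiff Manifold ComplexConjugate ComplexOrder ENNReal NNReal

noncomputable section

namespace Vale.Agent.P281.H64.TK.TS

/-! ### D. Families -/

/-- `s` is a holomorphic family of nonzero holomorphic forms of top degree on the fibres over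
`T'`. -/
structure HolFam {p d : ℕ} {E Γ : Type} [TopologicalSpace E] [Group Γ] [MulAction Γ E]
    (𝓕 : Fam p d E Γ) (T' : Set (Cm p)) (s : Fin 𝓕.N → Cm p × Cm d → ℂ) : Prop where
  hol : ∀ i, ∀ t ∈ T', ∀ z ∈ ball (0 : Cm d) 3, AnalyticAt ℂ (s i) (t, z)
  form : ∀ t (ht : t ∈ 𝓕.T), t ∈ T' → HolD (𝓕.at t ht) (fun i z => s i (t, z))
  ne : ∀ t ∈ T', ∃ i, ∃ z ∈ ball (0 : Cm d) 3, s i (t, z) ≠ 0

/-- **D2** (Grauert, `h⁰ = 1`): as `H603/K` (Montel on the sheets, difference quotients, Osgood),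
with the factor `det (jac θ)`; normalise the value at one point. -/
def GrauertStmt : Prop :=
  ∀ (p d : ℕ) (E Γ : Type) [TopologicalSpace E] [T2Space E] [PreconnectedSpace E] [Group Γ]
    [Subsingleton Γ] [MulAction Γ E] [ContinuousConstSMul Γ E] (𝓕 : Fam p d E Γ), 0 < d →
    (∀ t (ht : t ∈ 𝓕.T), H20One (𝓕.at t ht)) → ∀ t₀ ∈ 𝓕.T,
    ∃ (T' : Set (Cm p)) (s : Fin 𝓕.N → Cm p × Cm d → ℂ), T' ⊆ 𝓕.T ∧ IsOpen T' ∧ t₀ ∈ T' ∧
      HolFam 𝓕 T' s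

/-- **B1** (from the A's): the periods are holomorphic. (Good covering of the fibre number `t₀`;
for `t` near `t₀`, holomorphic primitives `β_a(t)` in the sheets, and primitives `g_{ab}(t)` which
vanish on holomorphic sections; then `c_{abe}(t)` is holomorphic.) -/
def HolPStmt : Prop :=
  ∀ (p : ℕ) (E Γ : Type) [TopologicalSpace E] [T2Space E] [Group Γ]
    [Subsingleton Γ] [MulAction Γ E] [ContinuousConstSMul Γ E] (𝓕 : Fam p 2 E Γ)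
    (T' : Set (Cm p)) (hT' : T' ⊆ 𝓕.T) (s : Fin 𝓕.N → Cm p × Cm 2 → ℂ) (t₀ : Cm p)
    (ht₀ : t₀ ∈ T') (n : ℕ) (M : Mark2 (𝓕.at t₀ (hT' ht₀)) n)
    (α : Cm p → Fin (𝓕.at t₀ (hT' ht₀)).N → Cm 2 → L2 2), IsOpen T' → HolFam 𝓕 T' s →
    (∀ t (ht : t ∈ T'), Cl2 (𝓕.at t₀ (hT' ht₀)) (α t) ∧
      Pull2 (𝓕.at t₀ (hT' ht₀)) (𝓕.at t (hT' ht)) id (α t) (fun i z => sf2 (s i (t, z)))) →
    ∀ k, AnalyticAt ℂ (fun t => M.cl (α t) k) t₀

/-- **B2** (from the A's): the class of the Kähler metric is locally constant. (`W` is closed on the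
total space: the same Čech argument on `T' × U_a`.) -/
def KConstStmt : Prop :=
  ∀ (p : ℕ) (E Γ : Type) [TopologicalSpace E] [T2Space E] [Group Γ]
    [Subsingleton Γ] [MulAction Γ E] [ContinuousConstSMul Γ E] (𝓕 : Fam p 2 E Γ)
    (W : Fin 𝓕.N → Cm p × Cm 2 → Matrix (Fin p ⊕ Fin 2) (Fin p ⊕ Fin 2) ℂ) (t₀ : Cm p)
    (ht₀ : t₀ ∈ 𝓕.T) (n : ℕ) (M : Mark2 (𝓕.at t₀ ht₀) n)
    (α : Cm p → Fin (𝓕.at t₀ ht₀).N → Cm 2 → L2 2), KFam 𝓕 W →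
    (∀ t (ht : t ∈ 𝓕.T), Cl2 (𝓕.at t₀ ht₀) (α t) ∧
      Pull2 (𝓕.at t₀ ht₀) (𝓕.at t ht) id (α t) (fun i z => kf2 (fibW W t i z))) →
    ∀ᶠ t in 𝓝 t₀, M.cl (α t) = M.cl (α t₀)

/-- The intersection form of the basis of a marking. -/
def Bm {E Γ : Type} [TopologicalSpace E] [Group Γ] [MulAction Γ E] {S : Sheets 2 E Γ} {n : ℕ}
    (M : Mark2 S n) : Matrix (Fin n) (Fin n) ℝ :=
  Matrix.of fun k l => (wint S (M.b k) (M.b l)).re

/-- The class of the Kähler metric `w`. -/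
def kv {E Γ : Type} [TopologicalSpace E] [Group Γ] [MulAction Γ E] {S : Sheets 2 E Γ} {n : ℕ}
    (M : Mark2 S n) (w : Fin S.N → Cm 2 → Matrix (Fin 2) (Fin 2) ℂ) (k : Fin n) : ℝ :=
  (M.cl (fun i z => kf2 (w i z)) k).re

/-- **D1a**: the signature. -/
def SigStmt : Prop :=
  ∀ (n : ℕ) (B : Matrix (Fin n) (Fin n) ℝ), B.IsSymm → ∀ P P' : Submodule ℝ (Fin n → ℝ),
    (∀ x ∈ P, x ≠ 0 → 0 < x ⬝ᵥ B.mulVec x) → (∀ x ∈ P', x ≠ 0 → 0 < x ⬝ᵥ B.mulVec x) →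
    (∀ x, x ≠ 0 → (∀ y ∈ P, y ⬝ᵥ B.mulVec x = 0) → x ⬝ᵥ B.mulVec x < 0) →
    (∀ x, x ≠ 0 → (∀ y ∈ P', y ⬝ᵥ B.mulVec x = 0) → x ⬝ᵥ B.mulVec x < 0) →
    Module.finrank ℝ P = Module.finrank ℝ P'

/-- **D1** (from A8, A9, C, B2, D1a): `h^{2,0}` is constant. -/
def H20ConstStmt : Prop :=
  ∀ (p : ℕ) (E Γ : Type) [TopologicalSpace E] [T2Space E] [PreconnectedSpace E] [Group Γ]
    [Subsingleton Γ] [MulAction Γ E] [ContinuousConstSMul Γ E] (𝓕 : Fam p 2 E Γ)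
    (W : Fin 𝓕.N → Cm p × Cm 2 → Matrix (Fin p ⊕ Fin 2) (Fin p ⊕ Fin 2) ℂ), KFam 𝓕 W →
    ∀ t (ht : t ∈ 𝓕.T) t' (ht' : t' ∈ 𝓕.T), H20One (𝓕.at t ht) → H20One (𝓕.at t' ht')

/-- **D3** (from C): the periods of one surface. -/
def PerStmt : Prop :=
  ∀ (E Γ : Type) [TopologicalSpace E] [T2Space E] [PreconnectedSpace E] [Group Γ] [Subsingleton Γ]
    [MulAction Γ E] [ContinuousConstSMul Γ E] (S : Sheets 2 E Γ)
    (w : Fin S.N → Cm 2 → Matrix (Fin 2) (Fin 2) ℂ) (s : Fin S.N → Cm 2 → ℂ) (n : ℕ)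
    (M : Mark2 S n), Kah S w → HolD S s → (∃ i, ∃ z ∈ ball (0 : Cm 2) 3, s i z ≠ 0) →
    (∀ s', HolD S s' → ∃ c : ℂ, ∀ i, ∀ z ∈ ball (0 : Cm 2) 3, s' i z = c * s i z) →
    IsK3Period (Bm M) (kv M w) (M.cl fun i z => sf2 (s i z)) ∧
    (bil (Bm M) (M.cl fun i z => sf2 (s i z)) (star (M.cl fun i z => sf2 (s i z)))).re =
      4 * (S.int fun i z => ((‖s i z‖ ^ 2 : ℝ) : ℂ)).re

/-- **D4** (from A9, C2): the pull-back of a marking. -/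
def PullMarkStmt : Prop :=
  ∀ (E Γ : Type) [TopologicalSpace E] [T2Space E] [Group Γ] [Subsingleton Γ]
    [MulAction Γ E] [ContinuousConstSMul Γ E] (S : Sheets 2 E Γ)
    (E' Γ' : Type) [TopologicalSpace E'] [T2Space E'] [Group Γ'] [Subsingleton Γ']
    [MulAction Γ' E'] [ContinuousConstSMul Γ' E'] (S' : Sheets 2 E' Γ') (τ : E ≃ₜ E') (n : ℕ)
    (M' : Mark2 S' n), Dif S S' τ → ∃ M : Mark2 S n, Bm M = Bm M' ∧
      ∀ α α', Cl2 S α → Cl2 S' α' → Pull2 S S' τ α α' → M.cl α = M'.cl α'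

/-- **D5** (from C1): two markings of the same surface. -/
def TwoMarkStmt : Prop :=
  ∀ (E Γ : Type) [TopologicalSpace E] [T2Space E] [Group Γ] [Subsingleton Γ]
    [MulAction Γ E] [ContinuousConstSMul Γ E] (S : Sheets 2 E Γ) (n : ℕ) (M M' : Mark2 S n),
    ∃ A : Matrix (Fin n) (Fin n) ℤ, IsUnit A.det ∧
      (∀ α, Cl2 S α → M'.cl α = (A.map (Int.cast : ℤ → ℂ)).mulVec (M.cl α)) ∧
      (A.map (Int.cast : ℤ → ℝ)).transpose * Bm M' * A.map (Int.cast : ℤ → ℝ) = Bm M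

/-! ### G. Geometry -/

section
variable {p : ℕ} {Z Y : Type} [TopologicalSpace Z] [ChartedSpace (Cm (p + 2)) Z]
  [TopologicalSpace Y] [ChartedSpace (Cm p) Y]

/-- In some model of `f` at `y`, the universal covering `E` of the fibre is compact, with `N` sheets,
and `h^{2,0}(E) = 1`. -/
def NDegK (p N : ℕ) {Z Y : Type} [TopologicalSpace Z] [ChartedSpace (Cm (p + 2)) Z]
    [TopologicalSpace Y] [ChartedSpace (Cm p) Y] (f : Z → Y) (y : Y) : Prop :=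
  ∃ (E Γ : Type) (_ : TopologicalSpace E) (_ : T2Space E) (_ : SimplyConnectedSpace E)
    (_ : Group Γ) (_ : MulAction Γ E) (_ : ContinuousConstSMul Γ E)
    (_ : (⊥ : Subgroup Γ).FiniteIndex) (𝓕 : Fam p 2 E Γ)
    (q : Cm p → E → Z) (χ : OpenPartialHomeomorph Y (Cm p)) (t : Cm p) (ht : t ∈ 𝓕.T),
    Model (n := p + 2) f 𝓕 χ q ∧ χ.symm t = y ∧ Nat.card Γ = N ∧
      H20One (sub (𝓕.at t ht) (⊥ : Subgroup Γ))

/-- Local data over an open set of `Y`: a model, with markings of the surfaces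
`sub (𝓕.at t ht) ⊥` (all with the same form `B` and Kähler class `v`), and the generator `s` with its
period `P`. -/
structure LocK (f : Z → Y)
    (w : Chart (p + 2) Z → Cm (p + 2) → Matrix (Fin (p + 2)) (Fin (p + 2)) ℂ) (N : ℕ) {n : ℕ}
    (B : Matrix (Fin n) (Fin n) ℝ) (v : Fin n → ℝ) where
  E : Type
  Γ : Type
  [tE : TopologicalSpace E]
  [t2 : T2Space E]
  [sc : SimplyConnectedSpace E]
  [gr : Group Γ]
  [act : MulAction Γ E]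
  [ct : ContinuousConstSMul Γ E]
  [fin : (⊥ : Subgroup Γ).FiniteIndex]
  𝓕 : Fam p 2 E Γ
  q : Cm p → E → Z
  χ : OpenPartialHomeomorph Y (Cm p)
  model : Model (n := p + 2) f 𝓕 χ q
  W : Fin 𝓕.N → Cm p × Cm 2 → Matrix (Fin p ⊕ Fin 2) (Fin p ⊕ Fin 2) ℂ
  pull : IsPull w 𝓕 q W
  kfam : KFam 𝓕 W
  card : Nat.card Γ = N
  T' : Set (Cm p)
  hT' : T' ⊆ 𝓕.T
  isOpen' : IsOpen T'
  one : ∀ t (ht : t ∈ T'), H20One (sub (𝓕.at t (hT' ht)) (⊥ : Subgroup Γ))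
  s : Fin (fsub 𝓕 (⊥ : Subgroup Γ)).N → Cm p × Cm 2 → ℂ
  holS : HolFam (fsub 𝓕 (⊥ : Subgroup Γ)) T' s
  M : ∀ t (ht : t ∈ T'), Mark2 (sub (𝓕.at t (hT' ht)) (⊥ : Subgroup Γ)) n
  form : ∀ t (ht : t ∈ T'), Bm (M t ht) = B
  kah : ∀ t (ht : t ∈ T'), kv (M t ht) (fW (⊥ : Subgroup Γ) W t) = v
  P : Cm p → Fin n → ℂ
  per : ∀ t (ht : t ∈ T'), P t = (M t ht).cl fun i z => sf2 (s i (t, z))
  holP : ∀ k, ∀ t ∈ T', AnalyticAt ℂ (fun t => P t k) t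

attribute [instance] LocK.tE LocK.t2 LocK.sc LocK.gr LocK.act LocK.ct LocK.fin

end

/-- **G1** (from A8, D, B, `ABStmt`, `WStmt`, `KStmt`): if one fibre over `Y ∖ S` is as in `NDegK`,
there are local data at all the points of `Y ∖ S`, with the same `n`, `B`, `v`. (As
`H603.TE.dglobE`: the set of the `y` with a marked model with `B`, `v` is open and closed.) -/
def GlobKStmt : Prop :=
  ∀ (p N : ℕ) (Z Y : Type) [TopologicalSpace Z] [T2Space Z] [ChartedSpace (Cm (p + 2)) Z]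
    [IsManifold 𝓘(ℂ, Cm (p + 2)) ω Z] [TopologicalSpace Y] [T2Space Y] [ChartedSpace (Cm p) Y]
    [IsManifold 𝓘(ℂ, Cm p) ω Y] (f : Z → Y) (S : Set Y)
    (w : Chart (p + 2) Z → Cm (p + 2) → Matrix (Fin (p + 2)) (Fin (p + 2)) ℂ) (y₁ : Y),
    ContMDiff 𝓘(ℂ, Cm (p + 2)) 𝓘(ℂ, Cm p) ω f →
    IsProperFibration (n := p + 2) (p := p) f S → IsPreconnected Sᶜ → IsKahler w →
    y₁ ∉ S → NDegK p N f y₁ →
    ∃ (n : ℕ) (B : Matrix (Fin n) (Fin n) ℝ) (v : Fin n → ℝ), ∀ y₀ ∉ S,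
      ∃ L : LocK (p := p) f w N B v, y₀ ∈ L.χ.source ∧ L.χ y₀ ∈ L.T' ∧
        ∀ t ∈ L.T', L.χ.symm t ∉ S

/-- **G2** (from D3, D4, D5, `KStmt`): the `N`-canonical forms `s ^ N` on the fibres. (The group `Γ`
acts on `ℂ s` by a character with `χ ^ N = 1`.) -/
def FormKStmt : Prop :=
  ∀ (p N : ℕ) (Z Y : Type) [TopologicalSpace Z] [T2Space Z] [ChartedSpace (Cm (p + 2)) Z]
    [IsManifold 𝓘(ℂ, Cm (p + 2)) ω Z] [TopologicalSpace Y] [T2Space Y] [ChartedSpace (Cm p) Y]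
    [IsManifold 𝓘(ℂ, Cm p) ω Y] (f : Z → Y) (S : Set Y)
    (w : Chart (p + 2) Z → Cm (p + 2) → Matrix (Fin (p + 2)) (Fin (p + 2)) ℂ) (n : ℕ)
    (B : Matrix (Fin n) (Fin n) ℝ) (v : Fin n → ℝ), 0 < N →
    ContMDiff 𝓘(ℂ, Cm (p + 2)) 𝓘(ℂ, Cm p) ω f →
    IsProperFibration (n := p + 2) (p := p) f S → IsKahler w →
    (∀ y₀ ∉ S, ∃ L : LocK (p := p) f w N B v, y₀ ∈ L.χ.source ∧ L.χ y₀ ∈ L.T' ∧
      ∀ t ∈ L.T', L.χ.symm t ∉ S) →
    ∃ (ι : Type) (U : ι → Set Y) (π : ι → Y → ((Fin 0 → ℝ) ≃L[ℝ] EuclideanSpace ℂ (Fin 0)))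
      (P : ι → Y → Fin 1 → Fin n → ℂ) (η : ι → Fin 1 → Z → (Fin 2 → Cm (p + 2)) → ℂ),
      IsPeriodForms (Cm (p + 2)) (Cm p) f S 0 N (fun _ => 0) (fun _ _ => 0) 0 (fun _ => B)
        (fun _ => v) (fun _ => N) U π P η

section
variable {d : ℕ} {F : Type} [TopologicalSpace F] [ChartedSpace (Cm d) F]

/-- `s` is a holomorphic form of top degree: `s e dz_1 ∧ ⋯ ∧ dz_d` in the chart `e`. -/
structure IsCan (s : Chart d F → Cm d → ℂ) : Prop where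
  hol : ∀ e ∈ atlas (Cm d) F, DifferentiableOn ℂ (s e) e.target
  change : ∀ e ∈ atlas (Cm d) F, ∀ e' ∈ atlas (Cm d) F, ∀ x ∈ e.source ∩ e'.source,
    s e (e x) = s e' (e' x) * (jac (fun u => e' (e.symm u)) (e x)).det

variable (d F) in
/-- The space of holomorphic forms of top degree of `F` has dimension one. -/
def PgOne : Prop :=
  ∃ s : Chart d F → Cm d → ℂ, IsCan s ∧ (∃ e ∈ atlas (Cm d) F, ∃ u ∈ e.target, s e u ≠ 0) ∧
    ∀ s' : Chart d F → Cm d → ℂ, IsCan s' → ∃ c : ℂ, ∀ e ∈ atlas (Cm d) F, ∀ u ∈ e.target,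
      s' e u = c * s e u

end

/-- **G3**: the fibre. `F → f⁻¹(y)` is the universal covering (`F` is compact, simply connected). -/
def FibKStmt : Prop :=
  ∀ (p : ℕ) (Z Y : Type) [TopologicalSpace Z] [T2Space Z] [ChartedSpace (Cm (p + 2)) Z]
    [IsManifold 𝓘(ℂ, Cm (p + 2)) ω Z] [TopologicalSpace Y] [T2Space Y] [ChartedSpace (Cm p) Y]
    [IsManifold 𝓘(ℂ, Cm p) ω Y] (f : Z → Y) (S : Set Y),
    ContMDiff 𝓘(ℂ, Cm (p + 2)) 𝓘(ℂ, Cm p) ω f →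
    IsProperFibration (n := p + 2) (p := p) f S → ABStmt →
    ∀ y ∉ S, ∀ (F : Type) [TopologicalSpace F] [T2Space F] [SimplyConnectedSpace F]
      [ChartedSpace (Cm 2) F] (i : F → Z), H511.Surf.IsFibre (Cm (p + 2)) (Cm 2) f y i →
      PgOne 2 F → ∃ N, 0 < N ∧ NDegK p N f y

/-- **T-S**, the goal: if the general fibre has a finite étale covering which is simply connected
with `p_g = 1` (for instance K3 and Enriques surfaces), then `κ(X, K_X + Δ) ≥ kodF f Δ`. -/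
def TSStmt : Prop :=
  ∀ (p : ℕ) (X Y : Type) [TopologicalSpace X] [ChartedSpace (Cm (p + 2)) X]
    [TopologicalSpace Y] [ChartedSpace (Cm p) Y] (f : X → Y) (Δ : Set X → ℝ),
    H511.Surf.IsFibration (Cm (p + 2)) (Cm p) f Δ →
    (∃ w : Chart (p + 2) X → Cm (p + 2) → Matrix (Fin (p + 2)) (Fin (p + 2)) ℂ, IsKahler w) →
    ∃ H : ℕ → Set Y, (∀ k, IsThinSet (Cm p) (H k)) ∧ ∀ y, (∀ k, y ∉ H k) →
      ∀ (F : Type) [TopologicalSpace F] [T2Space F] [SimplyConnectedSpace F]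
        [ChartedSpace (Cm 2) F] (i : F → X), H511.Surf.IsFibre (Cm (p + 2)) (Cm 2) f y i →
        PgOne 2 F →
        TZ.S.kodF (p + 2) p Δ (id : X → X) f ≤ TZ.S.kodX (Cm (p + 2)) Δ

end Vale.Agent.P281.H64.TK.TS
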