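import Vale.Agent.P281.H64.TS.Spec2
import Vale.Agent.P281.H303.UF.Core
import Vale.Agent.P281.H713.ZH
import Vale.Agent.P281.H303.TD.Core

/-!
# P281, project T-S (helper64), block G4: the assembly
-/

open Set Filter Metric MeasureTheory Vale.Agent.P281 Vale.Agent.P281.H713
open Vale.Agent.P272.K (Chart IsKahler IsHermitian)
open Vale.Agent.P281.MF Vale.Agent.P281.ISO
open Vale.Agent.P281.H713.TZ Vale.Agent.P281.H64
open Vale.Agent.P281.H64.Gen
open Vale.Agent.P281.H64.Thin (IsThinSet)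
open Vale.Agent.P281.H64.TU (Tame KTame RelFormT HasFormsT)
open scoped Topology ContDiff Manifold

set_option linter.all false

noncomputable section

namespace Vale.Agent.P281.H64.TK.TS

section Conv

variable {E E' E₀ : Type} [NormedAddCommGroup E] [NormedSpace ℂ E] [FiniteDimensional ℂ E]
  [NormedAddCommGroup E'] [NormedSpace ℂ E'] [FiniteDimensional ℂ E']
  [NormedAddCommGroup E₀] [NormedSpace ℂ E₀] [FiniteDimensional ℂ E₀]
variable {X Y : Type} [TopologicalSpace X] [ChartedSpace E X] [IsManifold 𝓘(ℂ, E) ω X]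
  [TopologicalSpace Y] [ChartedSpace E' Y] [IsManifold 𝓘(ℂ, E') ω Y]

theorem relFormT_of {T : Tame E₀ X} {f : X → Y} {S : Set Y} {e₀ : E ≃L[ℂ] (E' × E₀)} {N : ℕ}
    {𝒜 : Set (Set X)} {κ₀ : Set X → ℕ} {Θ : X → ℂ} (h : RelForm f S e₀ N 𝒜 κ₀ Θ) :
    RelFormT T f S e₀ N 𝒜 κ₀ Θ := by
  refine ⟨h.hol, fun r K hr hK => ?_⟩
  obtain ⟨C, hC⟩ := h.bound r hr
  exact ⟨C, fun v₀ Q h1 h2 h3 h4 h5 _ P hP => hC v₀ Q h1 h2 h3 h4 h5 P hP⟩

theorem hasFormsT_of {T : Tame E₀ X} {f : X → Y} {S : Set Y} {e₀ : E ≃L[ℂ] (E' × E₀)}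
    {Δ : Set X → ℝ} {r : ℕ} {y : Y} (h : HasForms f S e₀ Δ r y) : HasFormsT T f S e₀ Δ r y := by
  obtain ⟨N, 𝒜, κ₀, Θ, Ξ, h1, h2, h3, h4, h5, h6⟩ := h
  exact ⟨N, 𝒜, κ₀, Θ, Ξ, h1, h2, h3, relFormT_of h4, fun b => relFormT_of (h5 b), h6⟩

end Conv

/-- **G4**: the assembly -/
theorem ts_of (glob : GlobKStmt) (form : FormKStmt) (fib : FibKStmt) (ab : ABStmt)
    (crit : CritStmt) (compl : ComplStmt) (lift : TU.LiftTStmt) (tame : TU.TameOKStmt) :
    TSStmt := by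
  classical
  intro p X Y _ _ _ _ f Δ h hw
  obtain ⟨w, hw⟩ := hw
  have : T2Space X := h.hausdorff.1
  have : T2Space Y := h.hausdorff.2
  have : CompactSpace X := h.compact
  have : ConnectedSpace X := h.connected
  have : IsManifold 𝓘(ℂ, Cm (p + 2)) ω X := h.manifold.1
  have : IsManifold 𝓘(ℂ, Cm p) ω Y := h.manifold.2
  have hΔ0 : ∀ D, 0 ≤ Δ D := fun D => (snc01 (JB.snc h.snc) D).1
  have hsurj : Function.Surjective f := fun y => (h.fibres y).nonempty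
  have : PreconnectedSpace Y := by
    rw [preconnectedSpace_iff_univ, ← hsurj.range_eq]
    exact isPreconnected_range h.hol.continuous
  obtain ⟨S, hS, hP⟩ := crit (p + 2) p X Y f h.hol h.fibres
  have hP₁ := hP S subset_rfl hS.1
  have hpre := (compl p Y S hS).2
  obtain ⟨H, hH, hsub⟩ := hS.2
  refine ⟨H, hH, fun y hy F _ _ _ _ i hi hpg => ?_⟩
  have hyS : y ∉ S := by
    intro h2
    obtain ⟨k, hk⟩ := mem_iUnion.1 (hsub h2)
    exact hy k hk
  obtain ⟨N, hN, hND⟩ := fib p X Y f S h.hol hP₁ ab y hyS F i hi hpg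
  obtain ⟨n, B, v, hL⟩ := glob p N X Y f S w y h.hol hP₁ hpre hw hyS hND
  obtain ⟨ι, U, π, P, η, hC⟩ := form p N X Y f S w n B v hN h.hol hP₁ hw hL
  let e₀ : Cm (p + 2) ≃L[ℂ] (Cm p × Cm 2) := ContinuousLinearEquiv.ofFinrankEq (by simp)
  have h1 : (((0 : ℕ) : ℕ∞) : WithBot ℕ∞) + TZ.S.kodF (p + 2) p Δ (id : X → X) f ≤
      TZ.S.kodX (Cm (p + 2)) Δ := by
    refine H303.UF.first_of fun j₂ h₂ => ?_
    refine lift (p + 2) p X Y (Cm 2) (KTame w) f S e₀ Δ 0 j₂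
      (tame (p + 2) 2 X w hw.toIsHermitian) h.hol hS hP₁.submersive h.snc
      (fun y hy => hasFormsT_of ?_) h₂
    refine hasForms_periods hC (fun x => h.hol x) e₀ hN ?_ ?_ ?_ hy
    · simp
    · intro D hD
      exact absurd rfl hD
    · intro D
      simpa using mul_nonneg (Nat.cast_nonneg N) (hΔ0 D)
  simpa using h1

end Vale.Agent.P281.H64.TK.TS
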