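import Vale.Agent.P281.H64.TK.Defs

/-!
# P281, project T-S (helper64): K3 and Enriques fibres, definitions (FROZEN)

`S : Sheets d E Γ` with `[Subsingleton Γ]`: a compact complex manifold `E`. A 1-form is given by
its values `β i z : Cm d →L[ℝ] ℂ` in the sheets, a 2-form by `α i z : Cm d →L[ℝ] Cm d →L[ℝ] ℂ`.
-/

open Set Filter Metric MeasureTheory Vale.Agent.P272.K
open scoped Topology ContDiff ComplexConjugate ComplexOrder

noncomputable section

namespace Vale.Agent.P281.H64.TK.TS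

/-- 1-forms on `ℂ^d` (at a point). -/
abbrev L1 (d : ℕ) : Type := Cm d →L[ℝ] ℂ

/-- 2-forms on `ℂ^d` (at a point); alternating in `F2On`. -/
abbrev L2 (d : ℕ) : Type := Cm d →L[ℝ] Cm d →L[ℝ] ℂ

section
variable {d : ℕ} {E Γ : Type} [TopologicalSpace E] [Group Γ] [MulAction Γ E]
variable {E' Γ' : Type} [TopologicalSpace E'] [Group Γ'] [MulAction Γ' E']

/-- `ψ` is, near `z`, the smooth transition map from the sheet `i` to the sheet `j`, along `τ`. -/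
def Tr (S : Sheets d E Γ) (S' : Sheets d E' Γ') (τ : E → E') (i : Fin S.N) (j : Fin S'.N)
    (z z' : Cm d) (ψ : Cm d → Cm d) : Prop :=
  ContDiffAt ℝ ∞ ψ z ∧ ψ z = z' ∧ ∀ᶠ u in 𝓝 z, τ (S.σ i u) = S'.σ j (ψ u)

/-- `g` is smooth at the points of `V`. -/
def SmOn (S : Sheets d E Γ) (V : Set E) (g : E → ℂ) : Prop :=
  ∀ i, ∀ z ∈ ball (0 : Cm d) 3, S.σ i z ∈ V → ContDiffAt ℝ ∞ (fun u => g (S.σ i u)) z

/-- `β` is a smooth 1-form on the open set `V`. -/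
structure F1On (S : Sheets d E Γ) (V : Set E) (β : Fin S.N → Cm d → L1 d) : Prop where
  smooth : ∀ i, ∀ z ∈ ball (0 : Cm d) 3, S.σ i z ∈ V → ContDiffAt ℝ ∞ (β i) z
  change : ∀ i j, ∀ z ∈ ball (0 : Cm d) 3, ∀ z' ∈ ball (0 : Cm d) 3, S.σ i z ∈ V →
    ∀ ψ, Tr S S id i j z z' ψ → ∀ v, β i z v = β j z' (fderiv ℝ ψ z v)

/-- `α` is a smooth 2-form on the open set `V`. -/
structure F2On (S : Sheets d E Γ) (V : Set E) (α : Fin S.N → Cm d → L2 d) : Prop where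
  smooth : ∀ i, ∀ z ∈ ball (0 : Cm d) 3, S.σ i z ∈ V → ContDiffAt ℝ ∞ (α i) z
  alt : ∀ i, ∀ z ∈ ball (0 : Cm d) 3, S.σ i z ∈ V → ∀ u v, α i z u v = - α i z v u
  change : ∀ i j, ∀ z ∈ ball (0 : Cm d) 3, ∀ z' ∈ ball (0 : Cm d) 3, S.σ i z ∈ V →
    ∀ ψ, Tr S S id i j z z' ψ →
      ∀ u v, α i z u v = α j z' (fderiv ℝ ψ z u) (fderiv ℝ ψ z v)

/-- `dg = β` on `V`. -/
def IsD0 (S : Sheets d E Γ) (V : Set E) (g : E → ℂ) (β : Fin S.N → Cm d → L1 d) : Prop :=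
  ∀ i, ∀ z ∈ ball (0 : Cm d) 3, S.σ i z ∈ V → fderiv ℝ (fun u => g (S.σ i u)) z = β i z

/-- `dβ = α` on `V`. -/
def IsD1 (S : Sheets d E Γ) (V : Set E) (β : Fin S.N → Cm d → L1 d)
    (α : Fin S.N → Cm d → L2 d) : Prop :=
  ∀ i, ∀ z ∈ ball (0 : Cm d) 3, S.σ i z ∈ V → ∀ u v,
    fderiv ℝ (β i) z u v - fderiv ℝ (β i) z v u = α i z u v

/-- `α` is a closed smooth 2-form on `E`. -/
structure Cl2 (S : Sheets d E Γ) (α : Fin S.N → Cm d → L2 d) : Prop extends F2On S univ α where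
  closed : ∀ i, ∀ z ∈ ball (0 : Cm d) 3, ∀ u v w,
    fderiv ℝ (α i) z u v w + fderiv ℝ (α i) z v w u + fderiv ℝ (α i) z w u v = 0

/-- `α` is exact. -/
def Exact (S : Sheets d E Γ) (α : Fin S.N → Cm d → L2 d) : Prop :=
  ∃ β, F1On S univ β ∧ IsD1 S univ β α

/-- `α` is real. -/
def Real2 (S : Sheets d E Γ) (α : Fin S.N → Cm d → L2 d) : Prop :=
  ∀ i, ∀ z ∈ ball (0 : Cm d) 3, ∀ u v, (α i z u v).im = 0

/-- `α` on `E` is the pull-back of `α'` on `E'` by `τ`. -/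
def Pull2 (S : Sheets d E Γ) (S' : Sheets d E' Γ') (τ : E → E') (α : Fin S.N → Cm d → L2 d)
    (α' : Fin S'.N → Cm d → L2 d) : Prop :=
  ∀ i j, ∀ z ∈ ball (0 : Cm d) 3, ∀ z' ∈ ball (0 : Cm d) 3, ∀ ψ, Tr S S' τ i j z z' ψ →
    ∀ u v, α i z u v = α' j z' (fderiv ℝ ψ z u) (fderiv ℝ ψ z v)

/-- `α` is integral: it is the curvature of a connection on a principal `ℝ/ℤ`-bundle (with a
trivialisation on the members of some open covering). -/
def IsInt (S : Sheets d E Γ) (α : Fin S.N → Cm d → L2 d) : Prop :=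
  ∃ (ι : Type) (V : ι → Set E) (β : ι → Fin S.N → Cm d → L1 d) (g : ι → ι → E → ℂ),
    (∀ a, IsOpen (V a)) ∧ (∀ e, ∃ a, e ∈ V a) ∧
    (∀ a, F1On S (V a) (β a) ∧ IsD1 S (V a) (β a) α) ∧
    (∀ a b, SmOn S (V a ∩ V b) (g a b) ∧ IsD0 S (V a ∩ V b) (g a b) (fun i z => β a i z - β b i z)) ∧
    ∀ a b c, ∀ e ∈ V a ∩ V b ∩ V c, ∃ m : ℤ, g b c e - g a c e + g a b e = m

/-- **The marking**: a basis of `H²(E, ℤ) / torsion`, by real closed integral forms `b k`; `cl` gives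
the coordinates of the class of a closed 2-form. -/
structure Mark2 (S : Sheets d E Γ) (n : ℕ) where
  b : Fin n → Fin S.N → Cm d → L2 d
  cl : (Fin S.N → Cm d → L2 d) → Fin n → ℂ
  closed : ∀ k, Cl2 S (b k)
  real : ∀ k, Real2 S (b k)
  int : ∀ k, IsInt S (b k)
  ex : ∀ α, Cl2 S α → Exact S (fun i z => α i z - ∑ k, cl α k • b k i z)
  indep : ∀ c : Fin n → ℂ, Exact S (fun i z => ∑ k, c k • b k i z) → c = 0
  intcl : ∀ α, Cl2 S α → IsInt S α → ∀ k, ∃ m : ℤ, cl α k = m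

/-- `s` is a holomorphic form of top degree: `s i dz_1 ∧ ⋯ ∧ dz_d` in the sheet `i`. -/
structure HolD (S : Sheets d E Γ) (s : Fin S.N → Cm d → ℂ) : Prop where
  hol : ∀ i, DifferentiableOn ℂ (s i) (ball 0 3)
  change : ∀ i j, ∀ z ∈ ball (0 : Cm d) 3, ∀ z' ∈ ball (0 : Cm d) 3, ∀ θ : Cm d → Cm d,
    AnalyticAt ℂ θ z → θ z = z' → (∀ᶠ u in 𝓝 z, S.σ i u = S.σ j (θ u)) →
      s i z = s j z' * (jac θ z).det

/-- The space of holomorphic forms of top degree has dimension one. -/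
def H20One (S : Sheets d E Γ) : Prop :=
  ∃ s, HolD S s ∧ (∃ i, ∃ z ∈ ball (0 : Cm d) 3, s i z ≠ 0) ∧
    ∀ s', HolD S s' → ∃ c : ℂ, ∀ i, ∀ z ∈ ball (0 : Cm d) 3, s' i z = c * s i z

/-- Euclidean balls. -/
def eb (c : Cm d) (r : ℝ) : Set (Cm d) := {z | ∑ k, ‖z k - c k‖ ^ 2 < r ^ 2}

/-- A good covering: the members are images of Euclidean balls, and in the coordinates of each of
them the traces of the other ones are convex. -/
structure Good (S : Sheets d E Γ) (A : Type) where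
  i : A → Fin S.N
  c : A → Cm d
  r : A → ℝ
  pos : ∀ a, 0 < r a
  sub : ∀ a, eb (c a) (2 * r a) ⊆ ball 0 2
  cover : ∀ e : E, ∃ a, ∃ z ∈ eb (c a) (r a / 2), S.σ (i a) z = e
  conv : ∀ a b, Convex ℝ {z | z ∈ eb (c a) (r a) ∧ S.σ (i a) z ∈ S.σ (i b) '' eb (c b) (r b)}

/-- The member `a` of the covering. -/
def Good.U {S : Sheets d E Γ} {A : Type} (G : Good S A) (a : A) : Set E :=
  S.σ (G.i a) '' eb (G.c a) (G.r a)

/-- A smooth partition of unity subordinate to the covering. -/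
structure Part {S : Sheets d E Γ} {A : Type} [Fintype A] (G : Good S A) (ρ : A → E → ℝ) : Prop where
  smooth : ∀ a, SmOn S univ (fun e => (ρ a e : ℂ))
  nonneg : ∀ a e, 0 ≤ ρ a e
  sum : ∀ e, ∑ a, ρ a e = 1
  supp : ∀ a e, e ∉ G.U a → ∀ᶠ e' in 𝓝 e, ρ a e' = 0

/-- The Čech data of a closed 2-form `α` on the sets `U a`: `dβ_a = α`, `dg_{ab} = β_a - β_b`,
`c_{abc} = g_{bc} - g_{ac} + g_{ab}`. -/
structure IsCo (S : Sheets d E Γ) {A : Type} (U : A → Set E) (α : Fin S.N → Cm d → L2 d)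
    (β : A → Fin S.N → Cm d → L1 d) (g : A → A → E → ℂ) (c : A → A → A → ℂ) : Prop where
  f1 : ∀ a, F1On S (U a) (β a)
  d1 : ∀ a, IsD1 S (U a) (β a) α
  sm : ∀ a b, SmOn S (U a ∩ U b) (g a b)
  d0 : ∀ a b, IsD0 S (U a ∩ U b) (g a b) (fun i z => β a i z - β b i z)
  co : ∀ a b b', ∀ e ∈ U a ∩ U b ∩ U b', g b b' e - g a b' e + g a b e = c a b b'
  zero : ∀ a b b', U a ∩ U b ∩ U b' = ∅ → c a b b' = 0

end

/-- `c` is a Čech cocycle (`K3 a b c`: the triple intersection is not empty; `K4` likewise). -/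
def IsCoc {A R : Type} [AddCommGroup R] (K3 : A → A → A → Prop) (K4 : A → A → A → A → Prop)
    (c : A → A → A → R) : Prop :=
  (∀ a b e, ¬ K3 a b e → c a b e = 0) ∧
    ∀ a b e f, K4 a b e f → c b e f - c a e f + c a b f - c a b e = 0

/-- `c` is a Čech coboundary. -/
def IsCob {A R : Type} [AddCommGroup R] (K3 : A → A → A → Prop) (c : A → A → A → R) : Prop :=
  ∃ h : A → A → R, ∀ a b e, K3 a b e → c a b e = h b e - h a e + h a b

/-- The nerve of the sets `U a`: triple intersections. -/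
def K3 {E A : Type} (U : A → Set E) (a b e : A) : Prop := (U a ∩ U b ∩ U e).Nonempty

/-- The nerve of the sets `U a`: fourfold intersections. -/
def K4 {E A : Type} (U : A → Set E) (a b e f : A) : Prop := (U a ∩ U b ∩ U e ∩ U f).Nonempty

section D2

variable {E Γ : Type} [TopologicalSpace E] [Group Γ] [MulAction Γ E]

/-- The real basis `e_1, i e_1, e_2, i e_2` of `ℂ²`. -/
def rb2 (k : Fin 4) : Cm 2 :=
  ![Pi.single 0 1, Pi.single 0 Complex.I, Pi.single 1 1, Pi.single 1 Complex.I] k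

/-- The density of `a ∧ b`, with respect to the Lebesgue measure of `ℂ²`. -/
def wd (a b : L2 2) : ℂ :=
  a (rb2 0) (rb2 1) * b (rb2 2) (rb2 3) - a (rb2 0) (rb2 2) * b (rb2 1) (rb2 3) +
    a (rb2 0) (rb2 3) * b (rb2 1) (rb2 2) + a (rb2 1) (rb2 2) * b (rb2 0) (rb2 3) -
    a (rb2 1) (rb2 3) * b (rb2 0) (rb2 2) + a (rb2 2) (rb2 3) * b (rb2 0) (rb2 1)

/-- `∫ α ∧ α'` over the compact surface `E`. -/
def wint (S : Sheets 2 E Γ) (α α' : Fin S.N → Cm 2 → L2 2) : ℂ :=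
  S.int fun i z => wd (α i z) (α' i z)

/-- The 2-form with values `f u v` (`f` real bilinear). -/
def mkL2 (f : Cm 2 →ₗ[ℝ] Cm 2 →ₗ[ℝ] ℂ) : L2 2 :=
  LinearMap.toContinuousLinearMap
    ((LinearMap.toContinuousLinearMap (𝕜 := ℝ) (E := Cm 2) (F' := ℂ)).toLinearMap ∘ₗ f)

/-- The 2-form `s dz_1 ∧ dz_2` on `ℂ²`. -/
def sf2 (s : ℂ) : L2 2 :=
  mkL2 (LinearMap.mk₂ ℝ (fun u v : Cm 2 => s * (u 0 * v 1 - u 1 * v 0))
    (by intro u u' v; simp only [Pi.add_apply]; ring)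
    (by intro c u v; simp only [Pi.smul_apply, Complex.real_smul]; ring)
    (by intro u v v'; simp only [Pi.add_apply]; ring)
    (by intro c u v; simp only [Pi.smul_apply, Complex.real_smul]; ring))

/-- The real 2-form of the Hermitian matrix `w`: `(u, v) ↦ - Im (Σ w_{jk} u_j conj v_k)`, i.e.
`(i/2) Σ w_{jk} dz_j ∧ conj dz_k`. -/
def kf2 (w : Matrix (Fin 2) (Fin 2) ℂ) : L2 2 :=
  mkL2 (LinearMap.mk₂ ℝ
    (fun u v : Cm 2 => Complex.I / 2 *
      ∑ j, ∑ k, w j k * (u j * conj (v k) - v j * conj (u k)))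
    (by intro u u' v; simp only [Pi.add_apply, map_add, Fin.sum_univ_two]; ring)
    (by
      intro c u v
      simp only [Pi.smul_apply, Complex.real_smul, map_mul, Complex.conj_ofReal, Fin.sum_univ_two]
      ring)
    (by intro u v v'; simp only [Pi.add_apply, map_add, Fin.sum_univ_two]; ring)
    (by
      intro c u v
      simp only [Pi.smul_apply, Complex.real_smul, map_mul, Complex.conj_ofReal, Fin.sum_univ_two]
      ring))

end D2

end Vale.Agent.P281.H64.TK.TS
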