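import Vale.Agent.P281.H64.TS.Core
import Vale.Agent.P281.H64.TK.All
import Vale.Agent.P281.H303.UF.Fin
import Vale.Agent.P281.H559.TS.A1
import Vale.Agent.P281.H702.TS.A2
import Vale.Agent.P281.H702.TS.A4a
import Vale.Agent.P281.H352.TS.A3
import Vale.Agent.P281.H89.TS.A4b
import Vale.Agent.P281.H455.TS.Weil
import Vale.Agent.P281.H48.TS.A6
import Vale.Agent.P281.H751.TS.A7
import Vale.Agent.P281.H740.TS.Mark
import Vale.Agent.P281.H864.TS.Pull
import Vale.Agent.P281.H125.TS.C1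
import Vale.Agent.P281.H4.TS.C2b
import Vale.Agent.P281.H4.TS.C5
import Vale.Agent.P281.H842.TS.C3
import Vale.Agent.P281.H399.TS.Lap
import Vale.Agent.P281.H295.TS.C6
import Vale.Agent.P281.H624.TS.C7
import Vale.Agent.P281.H364.S.Gra
import Vale.Agent.P281.H406.TS.HolP
import Vale.Agent.P281.H834.TS.KConst
import Vale.Agent.P281.H747.TS.Fin
import Vale.Agent.P281.H594.TS.Per
import Vale.Agent.P281.H399.TS.Glob2
import Vale.Agent.P281.H511.TS.Fin
import Vale.Agent.P281.H22.TS.FibK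
import Vale.Agent.P281.H191.Sig
import Vale.Agent.P281.H191.TwoMark

/-!
# P281, project T-S (helper64): the final plug
-/

open Vale.Agent.P281 Vale.Agent.P281.H64

noncomputable section

namespace Vale.Agent.P281.H64.TK.TS

theorem aCoEx : CoExStmt := H702.TS.coEx H352.TS.poinStmt

theorem aCoCob : CoCobStmt := H89.TS.coCob H352.TS.poinStmt H702.TS.part

theorem aMark : MarkStmt :=
  H740.TS.mark H559.TS.good_stmt aCoEx aCoCob (H455.TS.weil H702.TS.part) H48.TS.lin H751.TS.intCob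

theorem aHodge : HodgeIndexStmt :=
  H624.TS.hodgeIndex H125.TS.c1 H4.TS.wd_det H842.TS.hodge02 H399.TS.lapStmt H4.TS.alg
    (H295.TS.l2Ex H559.TS.good_stmt aCoEx aCoCob)

/-- **T-S** -/
theorem ts : TSStmt :=
  ts_of
    (H399.TS.globK TK.inputs aMark H364.S.grauert
      (H406.TS.holP H559.TS.good_stmt H352.TS.poinStmt aCoEx aCoCob)
      (H834.TS.kConst H559.TS.good_stmt aCoCob) (H747.TS.h20ConstStmt aMark aHodge H191.TS.sig)
      H747.TS.pullMarkStmt)
    (H511.TS.formK TK.inputs.k (H594.TS.per H125.TS.c1 aHodge) H747.TS.pullMarkStmt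
      H191.TS.twoMarkStmt)
    H22.TS.fibK TK.inputs.ab H303.UF.crit H383.Gen.compl H383.U.liftT H383.U.tameOK

end Vale.Agent.P281.H64.TK.TS
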